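import Mathlib

namespace Vale.Agent.Results.P342.NoBoundedSelection

/-- `f` is an `n`-ary polymorphism from the triangle `K_3` to the clique `K_c`, i.e. a proper
`c`-colouring of the `n`-th tensor (categorical) power of `K_3`: two `n`-tuples are adjacent
when they differ in every coordinate. -/
def IsPolymorphism (c n : ℕ) (f : (Fin n → Fin 3) → Fin c) : Prop :=
  ∀ x y : Fin n → Fin 3, (∀ i, x i ≠ y i) → f x ≠ f y

/-- The minor of `f` along `π : Fin n → Fin m` (identifying and permuting variables, adding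
dummy variables). -/
def minor {c n m : ℕ} (f : (Fin n → Fin 3) → Fin c) (π : Fin n → Fin m) :
    (Fin m → Fin 3) → Fin c :=
  fun x => f (x ∘ π)

/-- number of coordinates of `x` equal to `a` -/
def cnt {n : ℕ} (x : Fin n → Fin 3) (a : Fin 3) : ℕ :=
  (Finset.univ.filter (fun i => x i = a)).card

lemma cnt_sum {n : ℕ} (x : Fin n → Fin 3) : cnt x 0 + cnt x 1 + cnt x 2 = n := by
  have h := Finset.card_eq_sum_card_fiberwise (f := x) (s := Finset.univ) (t := Finset.univ)
    (fun i _ => Finset.mem_univ _)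
  simp only [Finset.card_univ, Fintype.card_fin] at h
  rw [Fin.sum_univ_three] at h
  unfold cnt
  omega

lemma cnt_add_le {n : ℕ} (x y : Fin n → Fin 3) (h : ∀ i, x i ≠ y i) (a : Fin 3) :
    cnt x a + cnt y a ≤ n := by
  unfold cnt
  rw [← Finset.card_union_of_disjoint]
  · calc _ ≤ (Finset.univ : Finset (Fin n)).card := Finset.card_le_card (Finset.subset_univ _)
      _ = n := by simp
  · rw [Finset.disjoint_left]
    intro i hi hi'
    simp only [Finset.mem_filter, Finset.mem_univ, true_and] at hi hi'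
    exact h i (hi.trans hi'.symm)

/-- the two-thirds threshold colouring, as a natural number below 5 -/
def thrNat {n : ℕ} (x : Fin (n + 1) → Fin 3) : ℕ :=
  if 2 * (n + 1) < 3 * cnt x 0 then 0
  else if 2 * (n + 1) < 3 * cnt x 1 then 1
  else if 2 * (n + 1) < 3 * cnt x 2 then 2
  else if x 0 = 0 then 3
  else if x 0 = 1 then 4
  else if n + 1 ≤ 3 * cnt x 0 then 0
  else if n + 1 ≤ 3 * cnt x 1 then 1
  else 2

lemma thrNat_lt {n : ℕ} (x : Fin (n + 1) → Fin 3) : thrNat x < 5 := by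
  unfold thrNat
  split_ifs <;> omega

lemma fin3_cases (a : Fin 3) : a = 0 ∨ a = 1 ∨ a = 2 := by
  revert a; decide

lemma thrNat_spec {n : ℕ} (x : Fin (n + 1) → Fin 3) :
    (thrNat x = 0 ∧ (2 * (n + 1) < 3 * cnt x 0 ∨ (x 0 = 2 ∧ n + 1 ≤ 3 * cnt x 0))) ∨
    (thrNat x = 1 ∧ (2 * (n + 1) < 3 * cnt x 1 ∨ (x 0 = 2 ∧ n + 1 ≤ 3 * cnt x 1))) ∨
    (thrNat x = 2 ∧ (2 * (n + 1) < 3 * cnt x 2 ∨ (x 0 = 2 ∧ n + 1 ≤ 3 * cnt x 2))) ∨
    (thrNat x = 3 ∧ x 0 = 0) ∨ (thrNat x = 4 ∧ x 0 = 1) := by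
  have hx := cnt_sum x
  have hx3 := fin3_cases (x 0)
  unfold thrNat
  split_ifs with a1 a2 a3 a4 a5 a6 a7
  · simp [a1]
  · simp [a2]
  · simp [a3]
  · simp [a4]
  · simp [a5]
  · have : x 0 = 2 := by tauto
    simp [this, a6]
  · have : x 0 = 2 := by tauto
    simp [this, a7]
  · have : x 0 = 2 := by tauto
    have h2 : n + 1 ≤ 3 * cnt x 2 := by omega
    simp [this, h2]

lemma thrNat_ne {n : ℕ} (x y : Fin (n + 1) → Fin 3) (h : ∀ i, x i ≠ y i) :
    thrNat x ≠ thrNat y := by
  have h0 := cnt_add_le x y h 0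
  have h1 := cnt_add_le x y h 1
  have h2 := cnt_add_le x y h 2
  have hp := h 0
  intro heq
  rcases thrNat_spec x with ⟨e, p⟩ | ⟨e, p⟩ | ⟨e, p⟩ | ⟨e, p⟩ | ⟨e, p⟩ <;>
  rcases thrNat_spec y with ⟨e', p'⟩ | ⟨e', p'⟩ | ⟨e', p'⟩ | ⟨e', p'⟩ | ⟨e', p'⟩ <;>
  omega

lemma thrNat_of_big {n : ℕ} (x : Fin (n + 1) → Fin 3) (a : Fin 3)
    (h : 2 * (n + 1) < 3 * cnt x a) : thrNat x = a.val := by
  have hx := cnt_sum x
  unfold thrNat
  rcases fin3_cases a with rfl | rfl | rfl
  · simp [h]
  · have : ¬ 2 * (n + 1) < 3 * cnt x 0 := by omega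
    simp [h, this]
  · have h0 : ¬ 2 * (n + 1) < 3 * cnt x 0 := by omega
    have h1 : ¬ 2 * (n + 1) < 3 * cnt x 1 := by omega
    simp [h, h0, h1]

/-- For `c ≥ 5` there is no bounded-size choice of coordinates `I f` for the polymorphisms
`K_3 → K_c` that is compatible with taking minors. -/
theorem result (c : ℕ) (hc : 5 ≤ c) (N : ℕ) :
    ¬ ∃ I : (n : ℕ) → ((Fin n → Fin 3) → Fin c) → Finset (Fin n),
      (∀ n f, IsPolymorphism c n f → (I n f).card ≤ N) ∧
      (∀ n m f (π : Fin n → Fin m), IsPolymorphism c n f →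
        ((I n f).image π ∩ I m (minor f π)).Nonempty) := by
  rintro ⟨I, hcard, hminor⟩
  -- the threshold polymorphism of arity `3 N + 1`
  let f : (Fin (3 * N + 1) → Fin 3) → Fin c :=
    fun x => ⟨thrNat x, lt_of_lt_of_le (thrNat_lt x) hc⟩
  have hf : IsPolymorphism c (3 * N + 1) f := by
    intro x y h heq
    exact thrNat_ne x y h (congrArg Fin.val heq)
  -- the first projection of arity `N + 2`
  let p : (Fin (N + 2) → Fin 3) → Fin c :=
    fun y => ⟨(y 0).val, lt_of_lt_of_le (by have := (y 0).isLt; omega) hc⟩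
  have hp : IsPolymorphism c (N + 2) p := by
    intro x y h heq
    have h1 : (p x).val = (p y).val := congrArg Fin.val heq
    exact h 0 (Fin.ext h1)
  set S := I (3 * N + 1) f with hS
  set P := I (N + 2) p with hP
  have hScard : S.card ≤ N := hcard _ _ hf
  have hPcard : P.card ≤ N := hcard _ _ hp
  -- a coordinate outside `P ∪ {0}`
  obtain ⟨j0, hj0⟩ : ∃ j0 : Fin (N + 2), j0 ∉ insert 0 P := by
    by_contra hcon
    push Not at hcon
    have h1 : (Finset.univ : Finset (Fin (N + 2))) ⊆ insert 0 P := fun j _ => hcon j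
    have h2 := Finset.card_le_card h1
    have h3 := Finset.card_insert_le (0 : Fin (N + 2)) P
    simp only [Finset.card_univ, Fintype.card_fin] at h2
    omega
  have hj0P : j0 ∉ P := fun h => hj0 (Finset.mem_insert_of_mem h)
  let π : Fin (3 * N + 1) → Fin (N + 2) := fun i => if i ∈ S then j0 else 0
  have hmin : minor f π = p := by
    funext y
    have hbig : 2 * (3 * N + 1) < 3 * cnt (y ∘ π) (y 0) := by
      have hsub : (Finset.univ \ S) ⊆
          Finset.univ.filter (fun i => (y ∘ π) i = y 0) := by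
        intro i hi
        simp only [Finset.mem_sdiff, Finset.mem_univ, true_and] at hi
        simp [π, hi]
      have h1 := Finset.card_le_card hsub
      have h2 : (Finset.univ \ S).card = 3 * N + 1 - S.card := by
        rw [Finset.card_sdiff_of_subset (Finset.subset_univ S)]
        simp
      unfold cnt
      omega
    have := thrNat_of_big (y ∘ π) (y 0) hbig
    exact Fin.ext this
  obtain ⟨j, hj⟩ := hminor _ _ f π hf
  rw [hmin] at hj
  rw [Finset.mem_inter, Finset.mem_image] at hj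
  obtain ⟨⟨i, hiS, hij⟩, hjP⟩ := hj
  have hiS' : i ∈ S := hiS
  have : π i = j0 := by simp [π, hiS']
  rw [this] at hij
  exact hj0P (hij ▸ hjP)

end Vale.Agent.Results.P342.NoBoundedSelection
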